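import Mathlib
import Vale.Agent.P237.Full.John

/-!
Slicing by the hyperplanes orthogonal to a unit vector, and the least second moment of a
plane section.
-/

namespace Vale.Agent.P237.Three

open MeasureTheory Set
open scoped RealInnerProductSpace

variable {E : Type*} [NormedAddCommGroup E] [InnerProductSpace ℝ E] [FiniteDimensional ℝ E]
  [MeasurableSpace E] [BorelSpace E]

omit [MeasurableSpace E] [BorelSpace E] in
theorem isCompact_slice {K : Set E} (cK : IsCompact K) (u : E) (t : ℝ) :
    IsCompact {y : ↥((ℝ ∙ u)ᗮ) | (y : E) + t • u ∈ K} := by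
  refine Topology.IsClosedEmbedding.isCompact_preimage
    (f := fun y : ↥((ℝ ∙ u)ᗮ) => (y : E) + t • u) ?_ cK
  exact (Homeomorph.addRight (t • u)).isClosedEmbedding.comp
    (Submodule.closed_of_finiteDimensional _).isClosedEmbedding_subtypeVal

omit [FiniteDimensional ℝ E] [MeasurableSpace E] [BorelSpace E] in
theorem norm_sq_slice {u : E} (hu : ‖u‖ = 1) (y : ↥((ℝ ∙ u)ᗮ)) (t : ℝ) :
    ‖(y : E) + t • u‖ ^ 2 = t ^ 2 + ‖y‖ ^ 2 ∧ ⟪u, (y : E) + t • u⟫ = t := by
  have h : ⟪u, (y : E)⟫ = 0 := Submodule.mem_orthogonal_singleton_iff_inner_right.1 y.2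
  refine ⟨?_, ?_⟩
  · rw [norm_add_sq_real, real_inner_smul_right, real_inner_comm u, h, norm_smul, hu, mul_one,
      Real.norm_eq_abs, sq_abs, Submodule.coe_norm]
    ring
  · rw [inner_add_right, h, real_inner_smul_right, real_inner_self_eq_norm_sq, hu]
    ring

/-- Fubini along a unit vector. -/
theorem integral_slice {K : Set E} (cK : IsCompact K) {u : E} (hu : ‖u‖ = 1) {g : E → ℝ}
    (hg : Continuous g) :
    Integrable (fun t : ℝ => ∫ y in {y : ↥((ℝ ∙ u)ᗮ) | (y : E) + t • u ∈ K}, g ((y : E) + t • u)) ∧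
    ∫ x in K, g x =
      ∫ t : ℝ, ∫ y in {y : ↥((ℝ ∙ u)ᗮ) | (y : E) + t • u ∈ K}, g ((y : E) + t • u) := by
  set W := (ℝ ∙ u)ᗮ with hW
  set Ψ : WithLp 2 (ℝ × W) ≃ₗᵢ[ℝ] E :=
    (LinearIsometryEquiv.withLpProdCongr 2 (LinearIsometryEquiv.toSpanUnitSingleton u hu)
      (LinearIsometryEquiv.refl ℝ W)).trans (ℝ ∙ u).orthogonalDecomposition.symm with hΨ
  set e : ℝ × W ≃ᵐ E :=
    (MeasurableEquiv.toLp 2 (ℝ × W)).trans Ψ.toHomeomorph.toMeasurableEquiv
  have he : MeasurePreserving e volume volume :=
    (LinearIsometryEquiv.measurePreserving Ψ).comp (WithLp.volume_preserving_toLp ℝ W)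
  have happ : ∀ p : ℝ × W, e p = (p.2 : E) + p.1 • u := by
    intro p
    rw [add_comm]
    simp [e, hΨ, LinearIsometryEquiv.withLpProdCongr]
    rfl
  have hi : Integrable (K.indicator g) :=
    (integrable_indicator_iff cK.measurableSet).2 (hg.continuousOn.integrableOn_compact cK)
  have hi' : Integrable (fun p : ℝ × W => K.indicator g (e p)) :=
    (he.integrable_comp_emb e.measurableEmbedding).2 hi
  rw [Measure.volume_eq_prod] at hi'
  have heq : ∀ t : ℝ, ∫ y in {y : W | (y : E) + t • u ∈ K}, g ((y : E) + t • u) =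
      ∫ y : W, K.indicator g (e (t, y)) := by
    intro t
    rw [← integral_indicator (isCompact_slice cK u t).measurableSet]
    refine integral_congr_ae (Filter.Eventually.of_forall fun y => ?_)
    dsimp only
    rw [happ (t, y)]
    by_cases h : (y : E) + t • u ∈ K
    · rw [indicator_of_mem h, indicator_of_mem (show y ∈ {y : W | (y : E) + t • u ∈ K} from h)]
    · rw [indicator_of_notMem h,
        indicator_of_notMem (show y ∉ {y : W | (y : E) + t • u ∈ K} from h)]
  simp only [heq]
  refine ⟨hi'.integral_prod_left, ?_⟩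
  rw [← integral_indicator cK.measurableSet, ← he.integral_comp e.measurableEmbedding,
    Measure.volume_eq_prod, integral_prod _ hi']

/-- A plane set has at least the polar moment of the disc of the same area. -/
theorem sq_area_le {E : Type*} [NormedAddCommGroup E] [InnerProductSpace ℝ E]
    [FiniteDimensional ℝ E] [MeasurableSpace E] [BorelSpace E] (hd : Module.finrank ℝ E = 2)
    {L : Set E} (cL : IsCompact L) :
    (volume L).toReal ^ 2 / (2 * Real.pi) ≤ ∫ y in L, ‖y‖ ^ 2 := by
  have : Nontrivial E := Module.nontrivial_of_finrank_pos (R := ℝ) (by omega)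
  set R := √((volume L).toReal / Real.pi)
  have hR : R ^ 2 = (volume L).toReal / Real.pi := Real.sq_sqrt (by positivity)
  have hV : volume L = volume (Metric.closedBall (0 : E) R) := by
    rw [InnerProductSpace.volume_closedBall_of_dim_even (k := 1) (by omega), hd,
      ← ENNReal.ofReal_pow (Real.sqrt_nonneg _), hR, Nat.factorial_one, Nat.cast_one, pow_one,
      div_one, ← ENNReal.ofReal_mul (by positivity),
      div_mul_cancel₀ _ Real.pi_ne_zero, ENNReal.ofReal_toReal cL.measure_lt_top.ne]
  have h := Full.second_moment_ge cL (Real.sqrt_nonneg _) hV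
  rw [hd, hR] at h
  refine le_trans (le_of_eq ?_) h
  push_cast
  ring

end Vale.Agent.P237.Three
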