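import Mathlib

/-!
The two-variable inequality behind the profile lemma in dimension three.
-/

namespace Vale.Agent.P237.Three

/-- The polynomial part free of the square root, at `y = 1`. -/
private noncomputable def even0 (t : ℝ) : ℝ :=
  -87981049 / 100000000 + 10507 / 2500 * t - 170507 / 25000 * t ^ 2 + 76 / 15 * t ^ 3 +
    3 / 5 * t ^ 4 + 4 / 25 * t ^ 5

/-- The coefficient of the square root, at `y = 1`. -/
private noncomputable def odd1 (t : ℝ) : ℝ :=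
  15309 / 12500 - 8 / 5 * t - 12 / 5 * t ^ 2 + 16 / 15 * t ^ 3 + 4 / 25 * t ^ 5

private lemma small_nonneg {t : ℝ} (h0 : 0 ≤ t) (h1 : t ≤ 12 / 25) :
    0 ≤ odd1 t ∧ 0 ≤ even0 t + (1 - t ^ 2 / 2 - t ^ 4 / 6) * odd1 t := by
  have h2 : t ^ 2 ≤ 144 / 625 := by nlinarith
  constructor
  · unfold odd1
    nlinarith [mul_nonneg h0 (sub_nonneg.2 h1), pow_nonneg h0 5]
  · have hub : 0 ≤ odd1 t := by
      unfold odd1
      nlinarith [mul_nonneg h0 (sub_nonneg.2 h1), pow_nonneg h0 5]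
    have h3 : (1 - 27 / 50 * t ^ 2) * odd1 t ≤ (1 - t ^ 2 / 2 - t ^ 4 / 6) * odd1 t :=
      mul_le_mul_of_nonneg_right (by nlinarith [mul_nonneg (sq_nonneg t) (sub_nonneg.2 h2)]) hub
    refine le_trans ?_ (by linarith : even0 t + (1 - 27 / 50 * t ^ 2) * odd1 t ≤ _)
    unfold even0 odd1
    nlinarith [mul_nonneg h0 (sub_nonneg.2 h1), sq_nonneg (t - 6 / 25),
      mul_nonneg h0 (sq_nonneg (t - 6 / 25)), pow_nonneg h0 3, pow_nonneg h0 4,
      mul_nonneg (pow_nonneg h0 2) (sub_nonneg.2 h1), mul_nonneg (pow_nonneg h0 3) (sub_nonneg.2 h1),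
      mul_nonneg (pow_nonneg h0 4) (sub_nonneg.2 h1), mul_nonneg (pow_nonneg h0 5) (sub_nonneg.2 h1),
      mul_nonneg (pow_nonneg h0 6) (sub_nonneg.2 h1)]

private lemma large_nonneg {t : ℝ} (h0 : 12 / 25 ≤ t) (h1 : t ≤ 1) :
    0 ≤ even0 t ∧ 0 ≤ even0 t + ((1 - t ^ 2) / (7 / 5) + 7 / 20) * odd1 t := by
  have ht : 0 ≤ t := by linarith
  constructor
  · unfold even0
    nlinarith [mul_nonneg (sub_nonneg.2 h0) (sub_nonneg.2 h1), pow_nonneg ht 4, pow_nonneg ht 5]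
  · unfold even0 odd1
    nlinarith [mul_nonneg (sub_nonneg.2 h0) (sub_nonneg.2 h1), sq_nonneg (t - 3 / 5),
      mul_nonneg ht (sq_nonneg (t - 3 / 5)), mul_nonneg (pow_nonneg ht 2) (sq_nonneg (t - 3 / 5)),
      mul_nonneg (pow_nonneg ht 3) (sq_nonneg (t - 3 / 5))]

/-- The bracket of the pointwise argument is non-negative. -/
theorem key {t p y : ℝ} (ht : 0 ≤ t) (ht1 : t ≤ 1) (hp : 0 ≤ p) (hpt : p ^ 2 = 1 - t ^ 2)
    (hy : p ≤ y) :
    (y + p) * (18507 / 10000 + 4 / 5 * t ^ 2 - 1 / 5 * (y ^ 2 + p ^ 2)) ≤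
      31415 / 10000 + 2 * t * y - 2 * t + 2 / 3 * t ^ 3 + t ^ 5 / 10 := by
  set f : ℝ := 31415 / 10000 + 2 / 3 * t ^ 3 + t ^ 5 / 10
    - (1 + p) * (18507 / 10000 + 4 / 5 * t ^ 2 - 1 / 5 * (1 + p ^ 2)) with hf
  set A : ℝ := 1 / 5 * (3 + 2 * p + p ^ 2) - 18507 / 10000 + 2 * t - 4 / 5 * t ^ 2 with hA
  have hG : 0 ≤ 8 / 5 * (1 + p) * f - A ^ 2 := by
    have e : 8 / 5 * (1 + p) * f - A ^ 2 = even0 t + p * odd1 t := by
      rw [hf, hA]
      unfold even0 odd1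
      linear_combination
        (-42521 / 25000 + 12 / 25 * p + 7 / 25 * p ^ 2 - 4 / 5 * t - 31 / 25 * t ^ 2) * hpt
    rw [e]
    rcases le_total t (12 / 25) with h | h
    · obtain ⟨h1, h2⟩ := small_nonneg ht h
      have hL : 1 - t ^ 2 / 2 - t ^ 4 / 6 ≤ p := by
        by_contra hc
        have h3 : t ^ 2 ≤ 144 / 625 := by nlinarith
        nlinarith [mul_nonneg (pow_nonneg ht 4) (sub_nonneg.2 h3), sq_nonneg t, pow_nonneg ht 8,
          mul_self_lt_mul_self hp (lt_of_not_ge hc)]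
      nlinarith [mul_le_mul_of_nonneg_right hL h1]
    · obtain ⟨h1, h2⟩ := large_nonneg h ht1
      rcases le_total 0 (odd1 t) with ho | ho
      · nlinarith [mul_nonneg hp ho]
      · have hU : p ≤ (1 - t ^ 2) / (7 / 5) + 7 / 20 := by nlinarith [sq_nonneg (p - 7 / 10)]
        nlinarith [mul_le_mul_of_nonpos_right hU ho]
  set z := y - 1 with hz
  have hy0 : 0 ≤ y := hp.trans hy
  have e : 31415 / 10000 + 2 * t * y - 2 * t + 2 / 3 * t ^ 3 + t ^ 5 / 10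
      - (y + p) * (18507 / 10000 + 4 / 5 * t ^ 2 - 1 / 5 * (y ^ 2 + p ^ 2)) =
      f + A * z + 1 / 5 * (y + 2 + p) * z ^ 2 := by
    rw [hf, hA, hz]; ring
  have h1 : 2 / 5 * (1 + p) * z ^ 2 ≤ 1 / 5 * (y + 2 + p) * z ^ 2 :=
    mul_le_mul_of_nonneg_right (by linarith) (sq_nonneg z)
  have h2 : 0 ≤ 8 / 5 * (1 + p) * (f + A * z + 2 / 5 * (1 + p) * z ^ 2) := by
    rw [show 8 / 5 * (1 + p) * (f + A * z + 2 / 5 * (1 + p) * z ^ 2) =
      (8 / 5 * (1 + p) * f - A ^ 2) + (A + 4 / 5 * (1 + p) * z) ^ 2 by ring]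
    exact add_nonneg hG (sq_nonneg _)
  have h3 := (mul_nonneg_iff_of_pos_left (show 0 < 8 / 5 * (1 + p) by linarith)).1 h2
  linarith

end Vale.Agent.P237.Three
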