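import Mathlib
import Vale.Agent.P237.Three.Key

/-!
The profile lemma in dimension three: if `φ` is concave on `[0, 1]`, lies above the profile
`√(1 - t²)` of the ball and satisfies the moment condition `∫ φ⁴ ≤ 4 ∫ t² φ²`, then
`(3π²/16) ∫ φ² ≤ 2 (∫ φ)²`, with equality for the ball.
-/

namespace Vale.Agent.P237.Three

open MeasureTheory Set intervalIntegral

private lemma intInt_of_bound {g : ℝ → ℝ} {C : ℝ} (hg : ContinuousOn g (Ioo 0 1))
    (hC : ∀ t ∈ Ioo (0 : ℝ) 1, |g t| ≤ C) : IntervalIntegrable g volume 0 1 := by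
  rw [intervalIntegrable_iff_integrableOn_Ioo_of_le zero_le_one]
  refine IntegrableOn.of_bound (by simp) (hg.aestronglyMeasurable measurableSet_Ioo) C ?_
  filter_upwards [ae_restrict_mem measurableSet_Ioo] with t ht
  simpa [Real.norm_eq_abs] using hC t ht

private lemma half_integral_sqrt : (∫ t in (0 : ℝ)..1, √(1 - t ^ 2)) = Real.pi / 4 := by
  have hcont : Continuous fun t : ℝ => √(1 - t ^ 2) := by fun_prop
  have hneg : (∫ t in (-1 : ℝ)..0, √(1 - t ^ 2)) = ∫ t in (0 : ℝ)..1, √(1 - t ^ 2) := by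
    have h := intervalIntegral.integral_comp_neg (fun t : ℝ => √(1 - t ^ 2)) (a := -1) (b := 0)
    simpa using h
  have hadd := intervalIntegral.integral_add_adjacent_intervals
    (hcont.intervalIntegrable (μ := volume) (-1) 0) (hcont.intervalIntegrable (μ := volume) 0 1)
  rw [hneg, integral_sqrt_one_sub_sq] at hadd
  linarith

private lemma sqrt_le_taylor {s : ℝ} (h0 : 0 ≤ s) (h1 : s ≤ 1) :
    √(1 - s ^ 2) ≤ 1 - s ^ 2 / 2 - s ^ 4 / 8 := by
  have h2 : s ^ 2 ≤ 1 := pow_le_one₀ h0 h1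
  have h4 : s ^ 4 ≤ 1 := pow_le_one₀ h0 h1
  rw [Real.sqrt_le_iff]
  refine ⟨by linarith, ?_⟩
  nlinarith [pow_nonneg h0 6, pow_nonneg h0 8]

/-- The profile lemma in dimension three, with its equality case: the inequality is strict
unless the profile has the same integral of squares as the profile of the ball. -/
theorem profile_three {φ : ℝ → ℝ} (hc : ConcaveOn ℝ (Icc 0 1) φ)
    (hb : ∀ t ∈ Icc (0 : ℝ) 1, √(1 - t ^ 2) ≤ φ t)
    (hM : (∫ t in (0 : ℝ)..1, φ t ^ 4) ≤ 4 * ∫ t in (0 : ℝ)..1, t ^ 2 * φ t ^ 2) :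
    3 * Real.pi ^ 2 / 16 * (∫ t in (0 : ℝ)..1, φ t ^ 2) ≤
      2 * (∫ t in (0 : ℝ)..1, φ t) ^ 2 ∧
    (2 / 3 < (∫ t in (0 : ℝ)..1, φ t ^ 2) →
      3 * Real.pi ^ 2 / 16 * (∫ t in (0 : ℝ)..1, φ t ^ 2) <
        2 * (∫ t in (0 : ℝ)..1, φ t) ^ 2) := by
  have hpos : ∀ t ∈ Icc (0 : ℝ) 1, 0 ≤ φ t := fun t ht => (Real.sqrt_nonneg _).trans (hb t ht)
  obtain ⟨C, hC⟩ : ∃ C, ∀ t ∈ Icc (0 : ℝ) 1, φ t ≤ C := by
    refine ⟨2 * φ (1 / 2), fun t ht => ?_⟩
    have ht' : 1 - t ∈ Icc (0 : ℝ) 1 := ⟨by linarith [ht.2], by linarith [ht.1]⟩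
    have h := hc.2 ht ht' (show (0 : ℝ) ≤ 1 / 2 by norm_num) (show (0 : ℝ) ≤ 1 / 2 by norm_num)
      (by norm_num)
    simp only [smul_eq_mul] at h
    rw [show 1 / 2 * t + 1 / 2 * (1 - t) = (1 / 2 : ℝ) by ring] at h
    linarith [hpos _ ht']
  have hC0 : 0 ≤ C := (hpos 0 (by simp)).trans (hC 0 (by simp))
  have hcφ : ContinuousOn φ (Ioo 0 1) :=
    (hc.subset Ioo_subset_Icc_self (convex_Ioo 0 1)).continuousOn isOpen_Ioo
  have habs : ∀ t ∈ Ioo (0 : ℝ) 1, |φ t| ≤ C := fun t ht => by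
    rw [abs_of_nonneg (hpos t (Ioo_subset_Icc_self ht))]
    exact hC t (Ioo_subset_Icc_self ht)
  have iφ : IntervalIntegrable φ volume 0 1 := intInt_of_bound hcφ habs
  have iφ2 : IntervalIntegrable (fun t => φ t ^ 2) volume 0 1 :=
    intInt_of_bound (C := C ^ 2) (hcφ.pow 2) fun t ht => by
      rw [abs_pow]; exact pow_le_pow_left₀ (abs_nonneg _) (habs t ht) 2
  have iφ4 : IntervalIntegrable (fun t => φ t ^ 4) volume 0 1 :=
    intInt_of_bound (C := C ^ 4) (hcφ.pow 4) fun t ht => by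
      rw [abs_pow]; exact pow_le_pow_left₀ (abs_nonneg _) (habs t ht) 4
  have itφ2 : IntervalIntegrable (fun t => t ^ 2 * φ t ^ 2) volume 0 1 :=
    iφ2.continuousOn_mul (Continuous.continuousOn (by fun_prop))
  have hpc : Continuous fun t : ℝ => √(1 - t ^ 2) := by fun_prop
  set d : ℝ → ℝ := fun t => φ t - √(1 - t ^ 2) with hd
  set F : ℝ → ℝ := fun t => ∫ s in (0 : ℝ)..t, d s with hF
  have id1 : IntervalIntegrable d volume 0 1 := iφ.sub (hpc.intervalIntegrable 0 1)
  have hcd : ContinuousOn d (Ioo 0 1) := hcφ.sub hpc.continuousOn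
  have hFc : ContinuousOn F (Icc 0 1) := by
    have := intervalIntegral.continuousOn_primitive_interval' id1 left_mem_uIcc
    rwa [uIcc_of_le zero_le_one] at this
  have idF : IntervalIntegrable (fun t => d t * F t) volume 0 1 :=
    id1.mul_continuousOn (by rwa [uIcc_of_le zero_le_one])
  have hFd : ∀ t ∈ Ioo (0 : ℝ) 1, HasDerivAt F (d t) t := by
    intro t ht
    refine intervalIntegral.integral_hasDerivAt_right (id1.mono_set ?_)
      (hcd.stronglyMeasurableAtFilter isOpen_Ioo t ht)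
      (hcd.continuousAt (isOpen_Ioo.mem_nhds ht))
    rw [uIcc_of_le ht.1.le, uIcc_of_le zero_le_one]
    exact Icc_subset_Icc_right ht.2.le
  have hF0 : F 0 = 0 := by simp [hF]
  have hdF : (∫ t in (0 : ℝ)..1, d t * F t) = F 1 ^ 2 / 2 := by
    rw [intervalIntegral.integral_eq_sub_of_hasDerivAt_of_le zero_le_one
      (f := fun t => F t ^ 2 / 2) ((hFc.pow 2).div_const 2) ?_ idF, hF0]
    · norm_num
    · intro t ht
      exact (((hFd t ht).pow 2).div_const 2).congr_deriv (by ring)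
  -- the lower bound on the primitive
  have hFlow : ∀ t ∈ Icc (0 : ℝ) 1,
      2 * t * φ t - 2 * t + 2 / 3 * t ^ 3 + t ^ 5 / 10 ≤ 4 * F t := by
    intro t ht
    rcases ht.1.eq_or_lt with h0 | h0
    · subst h0; simp [hF0]
    have hsub : uIcc (0 : ℝ) t ⊆ uIcc 0 1 := by
      rw [uIcc_of_le ht.1, uIcc_of_le zero_le_one]
      exact Icc_subset_Icc_right ht.2
    have hlin : ∀ s ∈ Icc (0 : ℝ) t,
        1 + (φ t - 1) / t * s - (1 - s ^ 2 / 2 - s ^ 4 / 8) ≤ d s := by
      intro s hs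
      have hs1 : s ≤ 1 := hs.2.trans ht.2
      have ha : 0 ≤ 1 - s / t := by linarith [(div_le_one h0).2 hs.2]
      have hb' : 0 ≤ s / t := div_nonneg hs.1 h0.le
      have h := hc.2 (show (0 : ℝ) ∈ Icc (0 : ℝ) 1 by simp) ht ha hb' (by ring)
      simp only [smul_eq_mul, mul_zero, zero_add] at h
      rw [div_mul_cancel₀ s h0.ne'] at h
      have h1 : (1 : ℝ) ≤ φ 0 := by
        have := hb 0 (by simp)
        simpa using this
      have h2 := mul_le_mul_of_nonneg_left h1 ha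
      have e : 1 + (φ t - 1) / t * s = (1 - s / t) * 1 + s / t * φ t := by ring
      have h3 := sqrt_le_taylor hs.1 hs1
      simp only [hd]
      linarith
    have hint : (∫ s in (0 : ℝ)..t, (1 + (φ t - 1) / t * s - (1 - s ^ 2 / 2 - s ^ 4 / 8))) =
        t + (φ t - 1) / t * (t ^ 2 / 2) - t + t ^ 3 / 6 + t ^ 5 / 40 := by
      rw [intervalIntegral.integral_eq_sub_of_hasDerivAt (f := fun s =>
        s + (φ t - 1) / t * (s ^ 2 / 2) - s + s ^ 3 / 6 + s ^ 5 / 40)]
      · ring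
      · intro s _
        have h1 := hasDerivAt_id' s
        exact ((((h1.add (((h1.pow 2).div_const 2).const_mul ((φ t - 1) / t))).sub h1).add
          ((h1.pow 3).div_const 6)).add ((h1.pow 5).div_const 40)).congr_deriv
          (by push_cast; ring)
      · exact Continuous.intervalIntegrable (by fun_prop) _ _
    have hle := intervalIntegral.integral_mono_on ht.1
      (Continuous.intervalIntegrable (μ := volume) (by fun_prop) 0 t) (id1.mono_set hsub) hlin
    rw [hint] at hle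
    have e : (φ t - 1) / t * (t ^ 2 / 2) = (φ t - 1) * t / 2 := by field_simp
    rw [e] at hle
    simp only [hF]
    linarith
  -- the pointwise inequality
  set c : ℝ := 3 * Real.pi ^ 2 / 16 with hcdef
  have hc_le : c ≤ 18507 / 10000 := by
    have := mul_self_le_mul_self Real.pi_pos.le Real.pi_lt_d4.le
    rw [hcdef]
    norm_num at this ⊢
    nlinarith
  have hpt : ∀ t ∈ Icc (0 : ℝ) 1,
      (Real.pi - 31415 / 10000) * d t ≤ (Real.pi * d t + 4 * (d t * F t)) - c * (φ t ^ 2 - (1 - t ^ 2))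
        - 4 / 5 * (t ^ 2 * φ t ^ 2 - t ^ 2 * (1 - t ^ 2))
        + 1 / 5 * (φ t ^ 4 - (1 - t ^ 2) ^ 2) := by
    intro t ht
    have h2 : t ^ 2 ≤ 1 := pow_le_one₀ ht.1 ht.2
    obtain ⟨p, hp⟩ : ∃ p, p = √(1 - t ^ 2) := ⟨_, rfl⟩
    have hp2 : p ^ 2 = 1 - t ^ 2 := by rw [hp]; exact Real.sq_sqrt (by linarith)
    have hp0 : 0 ≤ p := hp ▸ Real.sqrt_nonneg _
    have hyp : p ≤ φ t := hp ▸ hb t ht
    have hk := key ht.1 ht.2 hp0 hp2 hyp
    have hbr : Real.pi - 31415 / 10000 ≤ Real.pi + 4 * F t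
        - (φ t + p) * (c + 4 / 5 * t ^ 2 - 1 / 5 * (φ t ^ 2 + p ^ 2)) := by
      have h3 := mul_le_mul_of_nonneg_left hc_le (show 0 ≤ φ t + p by linarith)
      linarith [hFlow t ht]
    have hdt : d t = φ t - p := by simp [hd, hp]
    have := mul_le_mul_of_nonneg_left hbr (sub_nonneg.2 hyp)
    rw [hdt, ← hp2]
    linarith
  -- integration
  have i1 : IntervalIntegrable (fun t : ℝ => 1 - t ^ 2) volume 0 1 :=
    Continuous.intervalIntegrable (by fun_prop) _ _
  have i2 : IntervalIntegrable (fun t : ℝ => t ^ 2 * (1 - t ^ 2)) volume 0 1 :=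
    Continuous.intervalIntegrable (by fun_prop) _ _
  have i3 : IntervalIntegrable (fun t : ℝ => (1 - t ^ 2) ^ 2) volume 0 1 :=
    Continuous.intervalIntegrable (by fun_prop) _ _
  have hb1 : (∫ t in (0 : ℝ)..1, (1 - t ^ 2)) = 2 / 3 := by
    rw [intervalIntegral.integral_eq_sub_of_hasDerivAt (f := fun t => t - t ^ 3 / 3)]
    · norm_num
    · intro s _
      exact ((hasDerivAt_id' s).sub (((hasDerivAt_id' s).pow 3).div_const 3)).congr_deriv
        (by push_cast; ring)
    · exact i1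
  have hb2 : (∫ t in (0 : ℝ)..1, t ^ 2 * (1 - t ^ 2)) = 2 / 15 := by
    rw [intervalIntegral.integral_eq_sub_of_hasDerivAt (f := fun t => t ^ 3 / 3 - t ^ 5 / 5)]
    · norm_num
    · intro s _
      exact ((((hasDerivAt_id' s).pow 3).div_const 3).sub
        (((hasDerivAt_id' s).pow 5).div_const 5)).congr_deriv (by push_cast; ring)
    · exact i2
  have hb3 : (∫ t in (0 : ℝ)..1, (1 - t ^ 2) ^ 2) = 8 / 15 := by
    rw [intervalIntegral.integral_eq_sub_of_hasDerivAt
      (f := fun t => t - t ^ 3 * (2 / 3) + t ^ 5 / 5)]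
    · norm_num
    · intro s _
      exact (((hasDerivAt_id' s).sub (((hasDerivAt_id' s).pow 3).mul_const (2 / 3))).add
        (((hasDerivAt_id' s).pow 5).div_const 5)).congr_deriv (by push_cast; ring)
    · exact i3
  have hD : F 1 = (∫ t in (0 : ℝ)..1, φ t) - Real.pi / 4 := by
    simp only [hF, hd]
    rw [intervalIntegral.integral_sub iφ (hpc.intervalIntegrable 0 1), half_integral_sqrt]
  have isum : IntervalIntegrable (fun t => (Real.pi * d t + 4 * (d t * F t))
      - c * (φ t ^ 2 - (1 - t ^ 2)) - 4 / 5 * (t ^ 2 * φ t ^ 2 - t ^ 2 * (1 - t ^ 2))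
      + 1 / 5 * (φ t ^ 4 - (1 - t ^ 2) ^ 2)) volume 0 1 :=
    ((((id1.const_mul Real.pi).add (idF.const_mul 4)).sub ((iφ2.sub i1).const_mul c)).sub
      ((itφ2.sub i2).const_mul (4 / 5))).add ((iφ4.sub i3).const_mul (1 / 5))
  have hnn := intervalIntegral.integral_mono_on zero_le_one
    (id1.const_mul (Real.pi - 31415 / 10000)) isum hpt
  have hDint : (∫ t in (0 : ℝ)..1, d t) = F 1 := rfl
  rw [intervalIntegral.integral_add
      ((((id1.const_mul Real.pi).add (idF.const_mul 4)).sub ((iφ2.sub i1).const_mul c)).sub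
        ((itφ2.sub i2).const_mul (4 / 5))) ((iφ4.sub i3).const_mul (1 / 5)),
    intervalIntegral.integral_sub
      (((id1.const_mul Real.pi).add (idF.const_mul 4)).sub ((iφ2.sub i1).const_mul c))
      ((itφ2.sub i2).const_mul (4 / 5)),
    intervalIntegral.integral_sub
      ((id1.const_mul Real.pi).add (idF.const_mul 4)) ((iφ2.sub i1).const_mul c),
    intervalIntegral.integral_add (id1.const_mul Real.pi) (idF.const_mul 4)] at hnn
  simp only [intervalIntegral.integral_const_mul] at hnn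
  rw [intervalIntegral.integral_sub iφ2 i1, intervalIntegral.integral_sub itφ2 i2,
    intervalIntegral.integral_sub iφ4 i3, hb1, hb2, hb3, hDint, hdF, hD] at hnn
  have hD0 : 0 ≤ F 1 := intervalIntegral.integral_nonneg zero_le_one
    fun t ht => sub_nonneg.2 (hb t ht)
  have hpi : (31415 : ℝ) / 10000 < Real.pi := by
    have h4 : (3.1415 : ℝ) < Real.pi := Real.pi_gt_d4
    norm_num at h4
    linarith
  have hJ : c * (∫ t in (0 : ℝ)..1, φ t ^ 2) + (Real.pi - 31415 / 10000) * F 1 ≤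
      2 * (∫ t in (0 : ℝ)..1, φ t) ^ 2 := by
    rw [hD, hcdef] at *
    nlinarith
  refine ⟨by nlinarith [mul_nonneg (sub_nonneg.2 hpi.le) hD0], fun hV => ?_⟩
  have hsq : (∫ t in (0 : ℝ)..1, φ t ^ 2) - 2 / 3 ≤ (C + C + 1) * F 1 := by
    rw [← hb1, ← intervalIntegral.integral_sub iφ2 i1, ← hDint,
      ← intervalIntegral.integral_const_mul]
    refine intervalIntegral.integral_mono_on zero_le_one (iφ2.sub i1) (id1.const_mul _)
      fun t ht => ?_
    have h2 : t ^ 2 ≤ 1 := pow_le_one₀ ht.1 ht.2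
    have hs := Real.sq_sqrt (show (0 : ℝ) ≤ 1 - t ^ 2 by linarith)
    have hle : φ t + √(1 - t ^ 2) ≤ C + C + 1 := by
      linarith [hC t ht, (hb t ht).trans (hC t ht)]
    have := mul_le_mul_of_nonneg_right hle (sub_nonneg.2 (hb t ht))
    simp only [hd]
    nlinarith
  have hF1 : 0 < F 1 := by
    by_contra h
    have := mul_nonpos_of_nonneg_of_nonpos (show 0 ≤ C + C + 1 by linarith) (not_lt.1 h)
    linarith
  nlinarith [mul_pos (sub_pos.2 hpi) hF1]

end Vale.Agent.P237.Three
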