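import Mathlib
import Vale.Agent.P237.Full.Defs
import Vale.Agent.P237.Three.Profile
import Vale.Agent.P237.Three.Slice

/-!
In dimension three some contact direction has the section integral of the ball: the moment
condition of the profile lemma holds on average over the contact directions.
-/

namespace Vale.Agent.P237.Three

open MeasureTheory Set Full
open scoped RealInnerProductSpace

/-- Twice the integral over `[0, 1]` of an even function. -/
private lemma integral_even {f : ℝ → ℝ} (hev : ∀ t, f (-t) = f t)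
    (hf : IntervalIntegrable f volume 0 1) :
    Integrable (fun t => if |t| ≤ 1 then f t else 0) ∧
      (∫ t, if |t| ≤ 1 then f t else 0) = 2 * ∫ t in (0 : ℝ)..1, f t := by
  have hneg : IntervalIntegrable f volume (-1) 0 := by
    have h := (IntervalIntegrable.iff_comp_neg (f := f) (a := 0) (b := 1)).1 hf
    simp only [hev, neg_zero] at h
    exact h.symm
  have hall : IntervalIntegrable f volume (-1) 1 := hneg.trans hf
  have hfun : (fun t => if |t| ≤ 1 then f t else 0) = (Icc (-1 : ℝ) 1).indicator f := by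
    funext t
    simp [indicator, mem_Icc, abs_le]
  have hon : IntegrableOn f (Icc (-1) 1) :=
    (intervalIntegrable_iff_integrableOn_Icc_of_le (by norm_num)).1 hall
  rw [hfun]
  refine ⟨(integrable_indicator_iff measurableSet_Icc).2 hon, ?_⟩
  rw [integral_indicator measurableSet_Icc, integral_Icc_eq_integral_Ioc,
    ← intervalIntegral.integral_of_le (by norm_num),
    ← intervalIntegral.integral_add_adjacent_intervals hneg hf]
  have h := intervalIntegral.integral_comp_neg f (a := -1) (b := 0)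
  simp only [hev, neg_zero, neg_neg] at h
  rw [h]
  ring

/-- The data of one contact direction in terms of its profile. -/
private lemma contact_data {K : Set (EuclideanSpace ℝ (Fin 3))} (cK : IsCompact K)
    {u : EuclideanSpace ℝ (Fin 3)} (hu : ‖u‖ = 1) {φ : ℝ → ℝ} (hφ : IsProfile 2 φ)
    (hs : ∀ t, sect K u t = if |t| ≤ 1 then Real.pi * φ t ^ 2 else 0) :
    (volume K).toReal = 2 * Real.pi * (∫ t in (0 : ℝ)..1, φ t ^ 2) ∧
      (∫ x in K, ⟪u, x⟫ ^ 2) = 2 * Real.pi * (∫ t in (0 : ℝ)..1, t ^ 2 * φ t ^ 2) ∧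
      2 * Real.pi * (∫ t in (0 : ℝ)..1, t ^ 2 * φ t ^ 2) +
        Real.pi * (∫ t in (0 : ℝ)..1, φ t ^ 4) ≤ (∫ x in K, ‖x‖ ^ 2) ∧
      sectPow K u = 4 * Real.pi * (∫ t in (0 : ℝ)..1, φ t) ^ 2 := by
  have hpos : ∀ t ∈ Icc (-1 : ℝ) 1, 0 ≤ φ t := fun t ht =>
    (Real.sqrt_nonneg _).trans (hφ.above t ht)
  have hcont : ContinuousOn φ (Ioo (-1) 1) :=
    (hφ.concave.subset Ioo_subset_Icc_self (convex_Ioo _ _)).continuousOn isOpen_Ioo
  have hbd : ∀ t ∈ Icc (-1 : ℝ) 1, φ t ≤ φ 0 := by
    intro t ht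
    have ht' : -t ∈ Icc (-1 : ℝ) 1 := ⟨by linarith [ht.2], by linarith [ht.1]⟩
    have h := hφ.concave.2 ht ht' (show (0 : ℝ) ≤ 1 / 2 by norm_num)
      (show (0 : ℝ) ≤ 1 / 2 by norm_num) (by norm_num)
    simp only [smul_eq_mul, hφ.even] at h
    rw [show 1 / 2 * t + 1 / 2 * (-t) = (0 : ℝ) by ring] at h
    linarith
  have hii : ∀ (g : ℝ → ℝ) (k : ℕ), Continuous g →
      IntervalIntegrable (fun t => g t * φ t ^ k) volume 0 1 := by
    intro g k hg
    refine IntervalIntegrable.continuousOn_mul ?_ hg.continuousOn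
    rw [intervalIntegrable_iff_integrableOn_Ioo_of_le zero_le_one]
    refine IntegrableOn.of_bound (by simp) (((hcont.mono fun t ht =>
      ⟨by linarith [ht.1], ht.2⟩).pow k).aestronglyMeasurable measurableSet_Ioo) (φ 0 ^ k) ?_
    filter_upwards [ae_restrict_mem measurableSet_Ioo] with t ht
    have ht' : t ∈ Icc (-1 : ℝ) 1 := ⟨by linarith [ht.1], ht.2.le⟩
    rw [Real.norm_eq_abs, abs_pow, abs_of_nonneg (hpos t ht')]
    exact pow_le_pow_left₀ (hpos t ht') (hbd t ht') k
  have hvol : ∀ t, ∫ _y in {y : ↥((ℝ ∙ u)ᗮ) | (y : EuclideanSpace ℝ (Fin 3)) + t • u ∈ K},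
      (1 : ℝ) = sect K u t := fun t => by
    simp [measureReal_def, sect]
  have hev : ∀ (k : ℕ) (t : ℝ), φ (-t) ^ k = φ t ^ k := fun k t => by rw [hφ.even]
  have e2 : IntervalIntegrable (fun t => Real.pi * φ t ^ 2) volume 0 1 :=
    hii _ 2 continuous_const
  have eM : IntervalIntegrable (fun t => t ^ 2 * (Real.pi * φ t ^ 2)) volume 0 1 :=
    (hii (fun t => t ^ 2 * Real.pi) 2 (by fun_prop)).congr (fun t _ => by ring)
  have hfin : Module.finrank ℝ ↥((ℝ ∙ u)ᗮ) = 2 := by
    have : Fact (Module.finrank ℝ (EuclideanSpace ℝ (Fin 3)) = 2 + 1) := ⟨by simp⟩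
    exact Submodule.finrank_orthogonal_span_singleton (n := 2) (by intro h; simp [h] at hu)
  have cM : (∫ t in (0 : ℝ)..1, t ^ 2 * (Real.pi * φ t ^ 2)) =
      Real.pi * ∫ t in (0 : ℝ)..1, t ^ 2 * φ t ^ 2 := by
    simp only [mul_left_comm _ Real.pi]
    exact intervalIntegral.integral_const_mul _ _
  refine ⟨?_, ?_, ?_, ?_⟩
  · obtain ⟨-, h⟩ := integral_slice cK hu (g := fun _ => (1 : ℝ)) continuous_const
    simp only [hvol, hs, setIntegral_const, measureReal_def, smul_eq_mul, mul_one] at h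
    rw [h, (integral_even (fun t => by rw [hev]) e2).2, intervalIntegral.integral_const_mul]
    ring
  · obtain ⟨-, h⟩ := integral_slice cK hu (g := fun x => ⟪u, x⟫ ^ 2) (by fun_prop)
    simp only [(norm_sq_slice hu _ _).2, setIntegral_const, smul_eq_mul] at h
    have e : ∀ t : ℝ, volume.real {y : ↥((ℝ ∙ u)ᗮ) | (y : EuclideanSpace ℝ (Fin 3)) + t • u ∈ K}
        * t ^ 2 = if |t| ≤ 1 then t ^ 2 * (Real.pi * φ t ^ 2) else 0 := fun t => by
      rw [measureReal_def, show (volume {y : ↥((ℝ ∙ u)ᗮ) |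
        (y : EuclideanSpace ℝ (Fin 3)) + t • u ∈ K}).toReal = sect K u t from rfl, hs]
      split_ifs <;> ring
    simp only [e] at h
    rw [h, (integral_even (fun t => by rw [hev, neg_sq]) eM).2, cM]
    ring
  · obtain ⟨hint, h⟩ := integral_slice cK hu (g := fun x => ‖x‖ ^ 2) (by fun_prop)
    have eN : IntervalIntegrable (fun t => Real.pi / 2 * φ t ^ 4) volume 0 1 :=
      hii _ 4 continuous_const
    obtain ⟨hi', he'⟩ := integral_even (f := fun t => t ^ 2 * (Real.pi * φ t ^ 2) +
      Real.pi / 2 * φ t ^ 4) (fun t => by rw [hev, hev, neg_sq]) (eM.add eN)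
    have hle : ∀ t : ℝ, (if |t| ≤ 1 then t ^ 2 * (Real.pi * φ t ^ 2) +
        Real.pi / 2 * φ t ^ 4 else 0) ≤
        ∫ y in {y : ↥((ℝ ∙ u)ᗮ) | (y : EuclideanSpace ℝ (Fin 3)) + t • u ∈ K},
          ‖(y : EuclideanSpace ℝ (Fin 3)) + t • u‖ ^ 2 := by
      intro t
      have cS := isCompact_slice cK u t
      simp only [(norm_sq_slice hu _ t).1]
      rw [integral_add (integrableOn_const (C := t ^ 2) cS.measure_lt_top.ne)
        ((by fun_prop : Continuous fun y : ↥((ℝ ∙ u)ᗮ) => ‖y‖ ^ 2).continuousOn.integrableOn_compact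
          cS), setIntegral_const, measureReal_def, smul_eq_mul]
      have h1 := sq_area_le hfin cS
      rw [show (volume {y : ↥((ℝ ∙ u)ᗮ) | (y : EuclideanSpace ℝ (Fin 3)) + t • u ∈ K}).toReal =
        sect K u t from rfl, hs] at h1 ⊢
      refine le_trans (le_of_eq ?_) (add_le_add le_rfl h1)
      split_ifs
      · field_simp
      · simp
    rw [h]
    refine le_trans (le_of_eq ?_) (integral_mono hi' hint hle)
    rw [he', intervalIntegral.integral_add eM eN, intervalIntegral.integral_const_mul, cM]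
    ring
  · have e : ∀ t : ℝ, sect K u t ^ ((((3 : ℕ) : ℝ) - 2) / (((3 : ℕ) : ℝ) - 1)) =
        if |t| ≤ 1 then √Real.pi * φ t else 0 := by
      intro t
      rw [show (((3 : ℕ) : ℝ) - 2) / (((3 : ℕ) : ℝ) - 1) = 1 / 2 by norm_num,
        ← Real.sqrt_eq_rpow, hs]
      split_ifs with ht
      · rw [Real.sqrt_mul Real.pi_pos.le, Real.sqrt_sq (hpos t (abs_le.1 ht))]
      · exact Real.sqrt_zero
    have e1 : IntervalIntegrable (fun t => √Real.pi * φ t) volume 0 1 := by
      simpa using hii (fun _ => √Real.pi) 1 continuous_const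
    rw [sectPow, show (3 : ℕ) - 1 = 2 from rfl]
    simp only [e]
    rw [(integral_even (fun t => by rw [hφ.even]) e1).2, intervalIntegral.integral_const_mul,
      mul_pow, mul_pow, Real.sq_sqrt Real.pi_pos.le]
    ring

/-- The contact bound in dimension three, given the profiles of the contact directions. -/
theorem contact_of_profiles {N : ℕ} {K : Set (EuclideanSpace ℝ (Fin 3))} {c : Fin N → ℝ}
    {u : Fin N → EuclideanSpace ℝ (Fin 3)} (h : InJohn K c u)
    (hp : ∀ i, ∃ φ, IsProfile 2 φ ∧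
      ∀ t, sect K (u i) t = if |t| ≤ 1 then kappa 2 * φ t ^ 2 else 0) :
    (∃ i, kappa (3 - 1) ^ (2 * 3 - 3) * (volume K).toReal ^ (3 - 2) ≤
      kappa (3 - 2) ^ (3 - 1) * kappa 3 ^ (3 - 2) * sectPow K (u i)) ∧
    (K ≠ Metric.closedBall 0 1 →
      ∃ i, kappa (3 - 1) ^ (2 * 3 - 3) * (volume K).toReal ^ (3 - 2) <
        kappa (3 - 2) ^ (3 - 1) * kappa 3 ^ (3 - 2) * sectPow K (u i)) := by
  obtain ⟨⟨hconv, cK, hint⟩, -, hball, hc0, hu, hc, hres, -⟩ := h
  have k0 : kappa 0 = 1 := by simp [kappa]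
  have k1 : kappa 1 = 2 := by
    have := kappa_add_two 1
    rw [kappa_three] at this
    field_simp at this
    push_cast at this
    linarith
  have k2 : kappa 2 = Real.pi := by rw [kappa_add_two 0, k0]; simp
  choose φ hφ hs using hp
  simp only [k2] at hs
  have D := fun i => contact_data cK (hu i) (hφ i) (hs i)
  set M : Fin N → ℝ := fun i => ∫ t in (0 : ℝ)..1, t ^ 2 * φ i t ^ 2 with hM
  set W : Fin N → ℝ := fun i => ∫ t in (0 : ℝ)..1, φ i t ^ 4 with hW
  obtain ⟨i, hi, hci⟩ : ∃ i, W i ≤ 4 * M i ∧ 0 ≤ c i := by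
    by_contra hne
    push Not at hne
    have hlt : ∀ i, 4 * M i < W i := fun i => lt_of_not_ge fun hle =>
      absurd (hc0 i) (not_le.2 (hne i hle))
    have hS := sum_contact_moment c u hres cK
    have h3 : ∑ i, c i * (2 * Real.pi * M i + Real.pi * W i) ≤
        ∑ i, c i * ∫ x in K, ‖x‖ ^ 2 :=
      Finset.sum_le_sum fun i _ => mul_le_mul_of_nonneg_left (D i).2.2.1 (hc0 i)
    rw [← Finset.sum_mul, hc, ← hS, Finset.mul_sum] at h3
    obtain ⟨j, -, hj⟩ := Finset.exists_ne_zero_of_sum_ne_zero (s := Finset.univ) (f := c)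
      (by rw [hc]; norm_num)
    have hj' : 0 < c j := lt_of_le_of_ne (hc0 j) (Ne.symm hj)
    refine not_lt.2 h3 (Finset.sum_lt_sum (fun i _ => ?_) ⟨j, Finset.mem_univ j, ?_⟩)
    · rw [(D i).2.1]
      have h5 := mul_le_mul_of_nonneg_left (hlt i).le (mul_nonneg (hc0 i) Real.pi_pos.le)
      push_cast
      linarith
    · rw [(D j).2.1]
      have h5 := mul_lt_mul_of_pos_left (hlt j) (mul_pos hj' Real.pi_pos)
      push_cast
      linarith
  obtain ⟨hV, -, -, hP⟩ := D i
  have hsub : Icc (0 : ℝ) 1 ⊆ Icc (-1) 1 := Icc_subset_Icc_left (by norm_num)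
  obtain ⟨hle, hlt⟩ := profile_three ((hφ i).concave.subset hsub (convex_Icc _ _))
    (fun t ht => (hφ i).above t (hsub ht)) hi
  have hpi2 : (0 : ℝ) < Real.pi ^ 2 * (32 / 3) := by positivity
  refine ⟨⟨i, ?_⟩, fun hne => ⟨i, ?_⟩⟩ <;>
    norm_num [k1, k2, kappa_three, hV, hP]
  · have := mul_le_mul_of_nonneg_left hle hpi2.le
    linarith
  · have hbig : (2 : ℝ) / 3 < ∫ t in (0 : ℝ)..1, φ i t ^ 2 := by
      set B := Metric.closedBall (0 : EuclideanSpace ℝ (Fin 3)) 1 with hB
      have cB : IsCompact B := isCompact_closedBall _ _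
      obtain ⟨x, hxK, hxB⟩ := not_subset.1 fun hsub' => hne (hsub'.antisymm hball)
      obtain ⟨y, hyK, hyB⟩ : ∃ y ∈ interior K, y ∉ B := by
        by_contra hno
        push Not at hno
        have : closure (interior K) ⊆ B := closure_minimal hno cB.isClosed
        rw [hconv.closure_interior_eq_closure_of_nonempty_interior hint, cK.isClosed.closure_eq]
          at this
        exact hxB (this hxK)
      have hpos : 0 < volume (K \ B) :=
        lt_of_lt_of_le ((isOpen_interior.sdiff cB.isClosed).measure_pos volume ⟨y, hyK, hyB⟩)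
          (measure_mono (sdiff_subset_sdiff_left interior_subset))
      rw [measure_sdiff hball cB.measurableSet.nullMeasurableSet cB.measure_lt_top.ne,
        tsub_pos_iff_lt] at hpos
      have := (ENNReal.toReal_lt_toReal cB.measure_lt_top.ne cK.measure_lt_top.ne).2 hpos
      rw [hV, hB, EuclideanSpace.volume_closedBall_fin_three] at this
      norm_num at this
      rw [ENNReal.toReal_ofReal (by positivity)] at this
      nlinarith [Real.pi_pos]
    have := mul_lt_mul_of_pos_left (hlt hbig) hpi2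
    linarith

end Vale.Agent.P237.Three
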